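import Vale.Agent.P039.Bn.Defs
import Mathlib.LinearAlgebra.Matrix.Rank
import Mathlib.Algebra.Field.ZMod

/-! Euler's inequality for connected maps: `|V| ≤ |B| + 2`. -/

namespace Vale.Agent.P039.H173

open Vale.Agent.P039.Bn

theorem finrank_ker_le_one' {ι κ : Type*} [Fintype ι] [Fintype κ]
    (M : Matrix κ ι (ZMod 2)) (h : ∀ z : ι → ZMod 2, M.mulVec z = 0 → ∀ f g, z f = z g) :
    Module.finrank (ZMod 2) (LinearMap.ker M.mulVecLin) ≤ 1 := by
  classical
  have : LinearMap.ker M.mulVecLin ≤ Submodule.span (ZMod 2) {(fun _ => 1 : ι → ZMod 2)} := by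
    intro z hz
    rw [LinearMap.mem_ker, Matrix.mulVecLin_apply] at hz
    have hc := h z hz
    rw [Submodule.mem_span_singleton]
    by_cases hι : Nonempty ι
    · obtain ⟨i⟩ := hι
      refine ⟨z i, ?_⟩
      funext j
      simp [hc j i]
    · refine ⟨0, ?_⟩
      funext j
      exact absurd ⟨j⟩ hι
  calc _ ≤ Module.finrank (ZMod 2)
        (Submodule.span (ZMod 2) {(fun _ => 1 : ι → ZMod 2)}) := Submodule.finrank_mono this
    _ ≤ 1 := by
      have := finrank_span_le_card (R := ZMod 2) ({(fun _ => 1 : ι → ZMod 2)} : Set (ι → ZMod 2))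
      simpa using this

theorem card_le_rank_add_one {ι κ : Type*} [Fintype ι] [Fintype κ]
    (M : Matrix κ ι (ZMod 2)) (h : ∀ z : ι → ZMod 2, M.mulVec z = 0 → ∀ f g, z f = z g) :
    Fintype.card ι ≤ M.rank + 1 := by
  have h1 := LinearMap.finrank_range_add_finrank_ker M.mulVecLin
  have h2 := finrank_ker_le_one' M h
  rw [Module.finrank_fintype_fun_eq_card] at h1
  unfold Matrix.rank
  omega

set_option linter.unusedSectionVars false

theorem ne1 (i : Fin 3) : i ≠ i + 1 := by revert i; decide

theorem ne2 (i : Fin 3) : i ≠ i + 2 := by revert i; decide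

theorem z2self (a : ZMod 2) : a + a = 0 := by revert a; decide

theorem z2eq {a b : ZMod 2} (h : a + b = 0) : a = b := by revert a b; decide

variable {B W V : Type} [Fintype B] [Fintype W] [Fintype V]

/-- vertex–edge incidences, edges `(b, i)` -/
noncomputable def vm (M : PMap B W V) : Matrix (B × Fin 3) (B ⊕ W) (ZMod 2) := by
  classical
  exact fun e x => (if x = Sum.inl e.1 then 1 else 0) + (if x = Sum.inr (M.e e.2 e.1) then 1 else 0)

theorem vm_mulVec (M : PMap B W V) (x : B ⊕ W → ZMod 2) (e : B × Fin 3) :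
    (vm M).mulVec x e = x (Sum.inl e.1) + x (Sum.inr (M.e e.2 e.1)) := by
  classical
  simp only [vm, Matrix.mulVec, dotProduct, add_mul, ite_mul, one_mul, zero_mul,
    Finset.sum_add_distrib]
  rw [Finset.sum_ite_eq' Finset.univ (Sum.inl e.1 : B ⊕ W) x,
    Finset.sum_ite_eq' Finset.univ (Sum.inr (M.e e.2 e.1) : B ⊕ W) x]
  simp

/-- face–edge incidences -/
noncomputable def fm (M : PMap B W V) : Matrix (B × Fin 3) V (ZMod 2) := by
  classical
  exact fun e x => (if x = M.c (e.2 + 1) e.1 then 1 else 0) +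
    (if x = M.c (e.2 + 2) e.1 then 1 else 0)

theorem fm_mulVec (M : PMap B W V) (x : V → ZMod 2) (e : B × Fin 3) :
    (fm M).mulVec x e = x (M.c (e.2 + 1) e.1) + x (M.c (e.2 + 2) e.1) := by
  classical
  simp only [fm, Matrix.mulVec, dotProduct, add_mul, ite_mul, one_mul, zero_mul,
    Finset.sum_add_distrib]
  rw [Finset.sum_ite_eq' Finset.univ (M.c (e.2 + 1) e.1) x,
    Finset.sum_ite_eq' Finset.univ (M.c (e.2 + 2) e.1) x]
  simp

theorem const_of_conn {M : PMap B W V} (hc : M.Conn) {α : Type*} (h : B → α)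
    (hh : ∀ j b b', M.e (j + 1) b' = M.e (j + 2) b → h b = h b') (b b' : B) : h b = h b' := by
  have key : ∀ j x y, M.c j x = M.c j y → h x = h y := by
    intro j x y hxy
    have := M.exact j x y hxy
    induction this with
    | rel x y hxy' => exact hh j _ _ hxy'
    | refl x => rfl
    | symm x y _ ih => exact (ih hxy.symm).symm
    | trans x y z h1 h2 ih1 ih2 =>
      have e1 : M.c j x = M.c j y := M.c_of_eqvGen h1
      have e2 : M.c j y = M.c j z := M.c_of_eqvGen h2
      exact (ih1 e1).trans (ih2 e2)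
  have := hc b b'
  induction this with
  | rel x y hxy => obtain ⟨j, hj⟩ := hxy; exact key j _ _ hj
  | refl x => rfl
  | symm x y _ ih => exact ih.symm
  | trans x y z _ _ ih1 ih2 => exact ih1.trans ih2

theorem vm_ker {M : PMap B W V} (hc : M.Conn) (x : B ⊕ W → ZMod 2) (hx : (vm M).mulVec x = 0)
    (u v : B ⊕ W) : x u = x v := by
  have h1 : ∀ b i, x (Sum.inl b) = x (Sum.inr (M.e i b)) := by
    intro b i
    have := congrFun hx (b, i)
    rw [vm_mulVec] at this
    exact z2eq this
  have h2 : ∀ b b', x (Sum.inl b) = x (Sum.inl b') := by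
    refine const_of_conn hc (fun b => x (Sum.inl b)) ?_
    intro j b b' h
    rw [h1 b (j + 2), h1 b' (j + 1), h]
  have h3 : ∀ w, ∃ b, x (Sum.inr w) = x (Sum.inl b) := by
    intro w
    refine ⟨(M.e 0).symm w, ?_⟩
    rw [h1 _ 0, Equiv.apply_symm_apply]
  have h4 : ∀ u, ∃ b, x u = x (Sum.inl b) := by
    intro u
    rcases u with b | w
    · exact ⟨b, rfl⟩
    · exact h3 w
  obtain ⟨b, hb⟩ := h4 u
  obtain ⟨b', hb'⟩ := h4 v
  rw [hb, hb']
  exact h2 b b'

theorem fm_ker {M : PMap B W V} (hc : M.Conn) (x : V → ZMod 2) (hx : (fm M).mulVec x = 0)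
    (u v : V) : x u = x v := by
  have h0 : ∀ b i, x (M.c (i + 1) b) = x (M.c (i + 2) b) := by
    intro b i
    have := congrFun hx (b, i)
    rw [fm_mulVec] at this
    exact z2eq this
  have h1 : ∀ b j, x (M.c j b) = x (M.c 0 b) := by
    intro b j
    have e0 := h0 b 0
    have e1 := h0 b 1
    have e2 := h0 b 2
    have : (∀ j : Fin 3, j = 0 ∨ j = 1 ∨ j = 2) := by decide
    have t0 : (0 : Fin 3) + 1 = 1 := by decide
    have t1 : (0 : Fin 3) + 2 = 2 := by decide
    have t2 : (1 : Fin 3) + 1 = 2 := by decide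
    have t3 : (1 : Fin 3) + 2 = 0 := by decide
    have t4 : (2 : Fin 3) + 1 = 0 := by decide
    have t5 : (2 : Fin 3) + 2 = 1 := by decide
    rw [t0, t1] at e0
    rw [t2, t3] at e1
    rcases this j with rfl | rfl | rfl
    · rfl
    · exact e0.trans e1
    · exact e1
  have h2 : ∀ b b', x (M.c 0 b) = x (M.c 0 b') := by
    refine const_of_conn hc (fun b => x (M.c 0 b)) ?_
    intro j b b' h
    rw [← h1 b j, ← h1 b' j, M.step j b b' h]
  obtain ⟨j, b, hb⟩ := M.surj u
  obtain ⟨j', b', hb'⟩ := M.surj v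
  rw [← hb, ← hb', h1 b j, h1 b' j']
  exact h2 b b'

theorem vm_tr (M : PMap B W V) (y : B × Fin 3 → ZMod 2) (u : B ⊕ W) :
    (vm M).transpose.mulVec y u = ∑ e : B × Fin 3, vm M e u * y e := rfl

theorem vm_fm (M : PMap B W V) (x : V → ZMod 2) :
    (vm M).transpose.mulVec ((fm M).mulVec x) = 0 := by
  classical
  funext u
  rw [vm_tr]
  simp only [fm_mulVec]
  rw [Fintype.sum_prod_type]
  rcases u with b | w
  · have : ∀ b', (∑ i : Fin 3, vm M (b', i) (Sum.inl b) *
        (x (M.c (i + 1) b') + x (M.c (i + 2) b'))) =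
        if b = b' then (∑ i : Fin 3, (x (M.c (i + 1) b') + x (M.c (i + 2) b'))) else 0 := by
      intro b'
      by_cases h : b = b'
      · subst h
        simp [vm]
      · simp [vm, h]
    rw [Finset.sum_congr rfl fun b' _ => this b']
    rw [Finset.sum_ite_eq Finset.univ b]
    simp only [Finset.mem_univ, if_true, Pi.zero_apply]
    rw [Fin.sum_univ_three]
    have t0 : (0 : Fin 3) + 1 = 1 := by decide
    have t1 : (0 : Fin 3) + 2 = 2 := by decide
    have t2 : (1 : Fin 3) + 1 = 2 := by decide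
    have t3 : (1 : Fin 3) + 2 = 0 := by decide
    have t4 : (2 : Fin 3) + 1 = 0 := by decide
    have t5 : (2 : Fin 3) + 2 = 1 := by decide
    rw [t0, t1, t2, t3, t4, t5]
    generalize x (M.c 0 b) = p
    generalize x (M.c 1 b) = q
    generalize x (M.c 2 b) = r
    revert p q r
    decide
  · rw [Finset.sum_comm]
    have : ∀ i : Fin 3, (∑ b' : B, vm M (b', i) (Sum.inr w) *
        (x (M.c (i + 1) b') + x (M.c (i + 2) b'))) =
        x (M.cw (i + 1) w) + x (M.cw (i + 2) w) := by
      intro i
      have h1 : ∀ b', vm M (b', i) (Sum.inr w) * (x (M.c (i + 1) b') + x (M.c (i + 2) b')) =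
          if b' = (M.e i).symm w then (x (M.c (i + 1) b') + x (M.c (i + 2) b')) else 0 := by
        intro b'
        by_cases h : b' = (M.e i).symm w
        · subst h
          simp [vm]
        · have h' : ¬ (w = M.e i b') := by
            intro h2
            apply h
            rw [h2, Equiv.symm_apply_apply]
          simp [vm, h, h']
      rw [Finset.sum_congr rfl fun b' _ => h1 b']
      rw [Finset.sum_ite_eq' Finset.univ]
      simp only [Finset.mem_univ, if_true]
      rw [M.cw_symm (i + 1) i (ne1 i), M.cw_symm (i + 2) i (ne2 i)]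
    rw [Finset.sum_congr rfl fun i _ => this i]
    rw [Fin.sum_univ_three]
    have t0 : (0 : Fin 3) + 1 = 1 := by decide
    have t1 : (0 : Fin 3) + 2 = 2 := by decide
    have t2 : (1 : Fin 3) + 1 = 2 := by decide
    have t3 : (1 : Fin 3) + 2 = 0 := by decide
    have t4 : (2 : Fin 3) + 1 = 0 := by decide
    have t5 : (2 : Fin 3) + 2 = 1 := by decide
    rw [t0, t1, t2, t3, t4, t5]
    simp only [Pi.zero_apply]
    generalize x (M.cw 0 w) = p
    generalize x (M.cw 1 w) = q
    generalize x (M.cw 2 w) = r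
    revert p q r
    decide

/-- **Euler's inequality.** -/
theorem euler_le (M : PMap B W V) (hc : M.Conn) : Fintype.card V ≤ Fintype.card B + 2 := by
  classical
  have h1 := card_le_rank_add_one (fm M) (fm_ker hc)
  have h2 := card_le_rank_add_one (vm M) (vm_ker hc)
  rw [← Matrix.rank_transpose] at h2
  have h3 := LinearMap.finrank_range_add_finrank_ker (vm M).transpose.mulVecLin
  rw [Module.finrank_fintype_fun_eq_card] at h3
  have h4 : LinearMap.range (fm M).mulVecLin ≤ LinearMap.ker (vm M).transpose.mulVecLin := by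
    rintro _ ⟨z, rfl⟩
    rw [LinearMap.mem_ker]
    exact vm_fm M z
  have h5 := Submodule.finrank_mono h4
  have h6 : Fintype.card (B × Fin 3) = 3 * Fintype.card B := by
    rw [Fintype.card_prod, Fintype.card_fin, mul_comm]
  have h7 : Fintype.card (B ⊕ W) = 2 * Fintype.card B := by
    rw [Fintype.card_sum, Fintype.card_congr (M.e 0).symm, two_mul]
  unfold Matrix.rank at h1 h2
  omega

end Vale.Agent.P039.H173
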