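import Vale.Agent.P039.H173.EulerIneq

/-! Planar duality for connected spherical maps, over `ZMod 2`. -/

namespace Vale.Agent.P039.H173

open Vale.Agent.P039.Bn

variable {B W V : Type} [Fintype B] [Fintype W] [Fintype V]

theorem fm_vm (M : PMap B W V) (x : B ⊕ W → ZMod 2) :
    (fm M).transpose.mulVec ((vm M).mulVec x) = 0 := by
  classical
  have h : (vm M).transpose * (fm M) = 0 := by
    apply Matrix.toLin'.injective
    apply LinearMap.ext
    intro x
    rw [map_zero, LinearMap.zero_apply, Matrix.toLin'_apply, ← Matrix.mulVec_mulVec]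
    exact vm_fm M x
  have h' : (fm M).transpose * (vm M) = 0 := by
    have := congrArg Matrix.transpose h
    rw [Matrix.transpose_mul, Matrix.transpose_transpose, Matrix.transpose_zero] at this
    exact this
  rw [Matrix.mulVec_mulVec, h', Matrix.zero_mulVec]

theorem card_E : Fintype.card (B × Fin 3) = 3 * Fintype.card B := by
  rw [Fintype.card_prod, Fintype.card_fin, mul_comm]

theorem card_BW (M : PMap B W V) : Fintype.card (B ⊕ W) = 2 * Fintype.card B := by
  rw [Fintype.card_sum, Fintype.card_congr (M.e 0).symm, two_mul]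

/-- A set of edges that meets every face an even number of times is a cut. -/
theorem exists_cut (M : PMap B W V) (hc : M.Conn) (hE : Fintype.card V = Fintype.card B + 2)
    (y : B × Fin 3 → ZMod 2) (hy : (fm M).transpose.mulVec y = 0) :
    ∃ x : B ⊕ W → ZMod 2, ∀ b i, y (b, i) = x (Sum.inl b) + x (Sum.inr (M.e i b)) := by
  classical
  have h1 := card_le_rank_add_one (fm M) (fm_ker hc)
  rw [← Matrix.rank_transpose] at h1
  have h2 := card_le_rank_add_one (vm M) (vm_ker hc)
  have h3 := LinearMap.finrank_range_add_finrank_ker (fm M).transpose.mulVecLin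
  rw [Module.finrank_fintype_fun_eq_card] at h3
  have h4 : LinearMap.range (vm M).mulVecLin ≤ LinearMap.ker (fm M).transpose.mulVecLin := by
    rintro _ ⟨z, rfl⟩
    rw [LinearMap.mem_ker]
    exact fm_vm M z
  have e1 := card_E (B := B)
  have e2 := card_BW M
  have h5 : Module.finrank (ZMod 2) (LinearMap.ker (fm M).transpose.mulVecLin) ≤
      Module.finrank (ZMod 2) (LinearMap.range (vm M).mulVecLin) := by
    unfold Matrix.rank at h1 h2
    omega
  have h6 := Submodule.eq_of_le_of_finrank_le h4 h5
  have h7 : y ∈ LinearMap.range (vm M).mulVecLin := by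
    rw [h6, LinearMap.mem_ker]; exact hy
  obtain ⟨x, hx⟩ := h7
  refine ⟨x, fun b i => ?_⟩
  rw [← hx]
  exact vm_mulVec M x (b, i)

/-- A set of edges that meets every vertex an even number of times is the boundary of a set of
faces. -/
theorem exists_face (M : PMap B W V) (hc : M.Conn) (hE : Fintype.card V = Fintype.card B + 2)
    (y : B × Fin 3 → ZMod 2) (hy : (vm M).transpose.mulVec y = 0) :
    ∃ z : V → ZMod 2, ∀ b i, y (b, i) = z (M.c (i + 1) b) + z (M.c (i + 2) b) := by
  classical
  have h1 := card_le_rank_add_one (fm M) (fm_ker hc)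
  have h2 := card_le_rank_add_one (vm M) (vm_ker hc)
  rw [← Matrix.rank_transpose] at h2
  have h3 := LinearMap.finrank_range_add_finrank_ker (vm M).transpose.mulVecLin
  rw [Module.finrank_fintype_fun_eq_card] at h3
  have h4 : LinearMap.range (fm M).mulVecLin ≤ LinearMap.ker (vm M).transpose.mulVecLin := by
    rintro _ ⟨z, rfl⟩
    rw [LinearMap.mem_ker]
    exact vm_fm M z
  have e1 := card_E (B := B)
  have e2 := card_BW M
  have h5 : Module.finrank (ZMod 2) (LinearMap.ker (vm M).transpose.mulVecLin) ≤
      Module.finrank (ZMod 2) (LinearMap.range (fm M).mulVecLin) := by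
    unfold Matrix.rank at h1 h2
    omega
  have h6 := Submodule.eq_of_le_of_finrank_le h4 h5
  have h7 : y ∈ LinearMap.range (fm M).mulVecLin := by
    rw [h6, LinearMap.mem_ker]; exact hy
  obtain ⟨z, hz⟩ := h7
  refine ⟨z, fun b i => ?_⟩
  rw [← hz]
  exact fm_mulVec M z (b, i)

theorem fm_tr (M : PMap B W V) (y : B × Fin 3 → ZMod 2) (v : V) :
    (fm M).transpose.mulVec y v = ∑ e : B × Fin 3, fm M e v * y e := rfl

/-- Two different edges with the same two faces form a cut. -/
theorem two_cut (M : PMap B W V) (hc : M.Conn) (hE : Fintype.card V = Fintype.card B + 2)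
    (i : Fin 3) (b b' : B) (hb : b ≠ b') (h1 : M.c (i + 1) b = M.c (i + 1) b')
    (h2 : M.c (i + 2) b = M.c (i + 2) b') :
    ∃ (S : Finset B) (T : Finset W), ∀ j x,
      (¬ (x ∈ S ↔ M.e j x ∈ T)) ↔ (j = i ∧ (x = b ∨ x = b')) := by
  classical
  let y : B × Fin 3 → ZMod 2 := fun e => (if e = (b, i) then 1 else 0) +
    (if e = (b', i) then 1 else 0)
  have hy : (fm M).transpose.mulVec y = 0 := by
    funext v
    rw [fm_tr]
    simp only [y, mul_add, mul_ite, mul_one, mul_zero, Finset.sum_add_distrib]
    rw [Finset.sum_ite_eq' Finset.univ (b, i) (fun e => fm M e v),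
      Finset.sum_ite_eq' Finset.univ (b', i) (fun e => fm M e v)]
    simp only [Finset.mem_univ, if_true, Pi.zero_apply, fm, h1, h2]
    exact z2self _
  obtain ⟨x, hx⟩ := exists_cut M hc hE y hy
  refine ⟨Finset.univ.filter fun a => x (Sum.inl a) = 1,
    Finset.univ.filter fun a => x (Sum.inr a) = 1, fun j a => ?_⟩
  have h := hx a j
  simp only [Finset.mem_filter, Finset.mem_univ, true_and]
  have h3 : (¬ (x (Sum.inl a) = 1 ↔ x (Sum.inr (M.e j a)) = 1)) ↔
      x (Sum.inl a) + x (Sum.inr (M.e j a)) = 1 := by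
    generalize x (Sum.inl a) = p
    generalize x (Sum.inr (M.e j a)) = q
    revert p q
    decide
  rw [h3, ← h]
  by_cases e1 : (a, j) = (b, i)
  · have e2 : (a, j) ≠ (b', i) := by
      rw [e1]
      intro h
      exact hb (Prod.ext_iff.1 h).1
    simp only [y, if_pos e1, if_neg e2, add_zero, true_iff]
    exact ⟨(Prod.ext_iff.1 e1).2, Or.inl (Prod.ext_iff.1 e1).1⟩
  · by_cases e2 : (a, j) = (b', i)
    · simp only [y, if_neg e1, if_pos e2, zero_add, true_iff]
      exact ⟨(Prod.ext_iff.1 e2).2, Or.inr (Prod.ext_iff.1 e2).1⟩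
    · simp only [y, if_neg e1, if_neg e2, add_zero]
      constructor
      · intro h
        exact absurd h (by decide)
      · rintro ⟨rfl, rfl | rfl⟩
        · exact absurd rfl e1
        · exact absurd rfl e2

end Vale.Agent.P039.H173
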