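import Vale.Agent.P039.H173.Ham6C
import Mathlib.LinearAlgebra.Matrix.ToLinearEquiv

/-! STEP 1: a good matching `f` gives Hamiltonian cycles avoiding any given edge at the root. -/

set_option linter.unusedSectionVars false
set_option linter.all false

namespace Vale.Agent.P039.H173

open Vale.Agent.P039.Bn Vale.Agent.P039.Bz Finset

variable {B W V : Type} [Fintype B] [Fintype W] [Fintype V]

theorem Fo_eq (M : PMap B W V) (b₀ : B) (b : BOff b₀) (j : Fin 3) (v : VOff M b₀) :
    Fo M b₀ b j = some v ↔ M.c j b.1 = v.1 := by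
  classical
  unfold Fo
  constructor
  · intro h
    split_ifs at h with hj
    have := Option.some.inj h
    rw [← this]
  · intro h
    have hj : ∀ i, M.c i b₀ ≠ M.c j b.1 := by
      intro i
      rw [h]
      exact v.2 i
    rw [dif_pos hj]
    exact congrArg some (Subtype.ext h)

/-- `bd x` is a flow -/
theorem flow2 (M : PMap B W V) [DecidableEq V] (x : W → ZMod 2) (v : V) :
    ∑ b, ∑ j, (if M.c j b = v then x (M.e (j + 1) b) + x (M.e (j + 2) b) else 0) = 0 := by
  rw [Finset.sum_comm]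
  refine Finset.sum_eq_zero fun j _ => ?_
  have h1 : ∑ b, (if M.c j b = v then x (M.e (j + 2) b) else 0) =
      ∑ b, (if M.c j b = v then x (M.e (j + 1) b) else 0) := by
    refine Fintype.sum_equiv (M.rho j) _ _ fun b => ?_
    rw [M.c_rho, M.e_rho]
  have h2 : ∑ b, (if M.c j b = v then x (M.e (j + 1) b) + x (M.e (j + 2) b) else 0) =
      ∑ b, (if M.c j b = v then x (M.e (j + 1) b) else 0) +
        ∑ b, (if M.c j b = v then x (M.e (j + 2) b) else 0) := by
    rw [← Finset.sum_add_distrib]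
    refine Finset.sum_congr rfl fun b _ => ?_
    by_cases h : M.c j b = v
    · rw [if_pos h, if_pos h, if_pos h]
    · rw [if_neg h, if_neg h, if_neg h, add_zero]
  rw [h2, h1]
  exact z2self _

theorem sum_off {α : Type*} [AddCommMonoid α] [DecidableEq B] (b₀ : B) (g : B → α)
    (h0 : g b₀ = 0) : ∑ b, g b = ∑ b : BOff b₀, g b.1 := by
  classical
  rw [← Finset.sum_subtype (Finset.univ.filter fun b => b ≠ b₀) (by simp) g]
  symm
  refine Finset.sum_subset (Finset.subset_univ _) fun b _ hb => ?_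
  have : b = b₀ := by
    by_contra h
    exact hb (Finset.mem_filter.2 ⟨Finset.mem_univ _, h⟩)
  rw [this, h0]

theorem sum3' {α : Type*} [AddCommMonoid α] (j : Fin 3) (g : Fin 3 → α) :
    ∑ i, g i = g j + g (j + 1) + g (j + 2) := by
  rw [Fin.sum_univ_three]
  have : ∀ j : Fin 3, j = 0 ∨ j = 1 ∨ j = 2 := by decide
  rcases this j with rfl | rfl | rfl
  · rfl
  · show g 0 + g 1 + g 2 = g 1 + g 2 + g 0
    rw [add_comm (g 1 + g 2) (g 0), add_assoc]
  · show g 0 + g 1 + g 2 = g 2 + g 0 + g 1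
    rw [add_comm (g 2) (g 0), add_right_comm]

theorem white_const (M : PMap B W V) [DecidableEq B] [DecidableEq V] (hS : M.Sph) (b₀ : B)
    (f : BOff b₀ → Fin 3) (hf : Mat (Fo M b₀) f) (hg : Good (Fo M b₀) f) (x : W → ZMod 2)
    (hx : ∀ b : BOff b₀, x (M.e (f b + 1) b.1) = x (M.e (f b + 2) b.1)) (w w' : W) :
    x w = x w' := by
  classical
  obtain ⟨φ, hφ⟩ := hf
  have hφ' : ∀ b, M.c (f b) b.1 = (φ b).1 := fun b => (Fo_eq M b₀ b _ _).1 (hφ b)
  let A : Matrix (BOff b₀) (BOff b₀) (ZMod 2) := fun b' b =>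
    (if M.c (f b + 1) b.1 = (φ b').1 then 1 else 0) +
      (if M.c (f b + 2) b.1 = (φ b').1 then 1 else 0)
  have hdet : A.det ≠ 0 := by
    intro h0
    obtain ⟨z, hz, hzA⟩ := Matrix.exists_vecMul_eq_zero_iff.2 h0
    let zx : V → ZMod 2 := fun v => if h : ∀ j, M.c j b₀ ≠ v then z (φ.symm ⟨v, h⟩) else 0
    have h1 : ∀ v : V, ∑ b', z b' * (if v = (φ b').1 then 1 else 0) = zx v := by
      intro v
      by_cases h : ∀ j, M.c j b₀ ≠ v
      · simp only [zx, dif_pos h]
        rw [Finset.sum_eq_single (φ.symm ⟨v, h⟩)]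
        · rw [if_pos (by rw [Equiv.apply_symm_apply]), mul_one]
        · intro b' _ hb'
          rw [if_neg, mul_zero]
          intro e
          apply hb'
          rw [Equiv.eq_symm_apply]
          exact Subtype.ext e.symm
        · intro h'; exact absurd (Finset.mem_univ _) h'
      · simp only [zx, dif_neg h]
        refine Finset.sum_eq_zero fun b' _ => ?_
        rw [if_neg, mul_zero]
        rintro rfl
        exact h (φ b').2
    have h2 : ∀ b : BOff b₀, zx (M.c (f b + 1) b.1) + zx (M.c (f b + 2) b.1) = 0 := by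
      intro b
      have this : ∑ b', z b' * A b' b = 0 := congrFun hzA b
      rw [← h1, ← h1, ← Finset.sum_add_distrib]
      refine Eq.trans (Finset.sum_congr rfl fun b' _ => ?_) this
      simp only [A, mul_add]
    have h3 : ∃ b', z b' ≠ 0 := by
      by_contra hno
      push Not at hno
      exact hz (funext hno)
    obtain ⟨b1, hb1⟩ := h3
    have one_of : ∀ a : ZMod 2, a ≠ 0 → a = 1 := by decide
    obtain ⟨b, i, j, hi, hj, ⟨v, hvK, hv⟩, hjK⟩ := hg {v | z (φ.symm v) = 1} ⟨φ b1, by
      show z (φ.symm (φ b1)) = 1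
      rw [Equiv.symm_apply_apply]
      exact one_of _ hb1⟩
    have h4 : zx (M.c i b.1) = 1 := by
      rw [(Fo_eq M b₀ b i v).1 hv]
      have : zx v.1 = z (φ.symm v) := by
        simp only [zx]
        rw [dif_pos v.2]
      rw [this]
      exact hvK
    have h5 : zx (M.c j b.1) ≠ 1 := by
      intro h
      by_cases h' : ∀ k, M.c k b₀ ≠ M.c j b.1
      · simp only [zx, dif_pos h'] at h
        exact hjK ⟨M.c j b.1, h'⟩ h ((Fo_eq M b₀ b j _).2 rfl)
      · simp only [zx, dif_neg h'] at h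
        exact absurd h (by decide)
    have h6 : zx (M.c i b.1) = zx (M.c j b.1) := by
      have hb := z2eq (h2 b)
      rcases fcase i (f b) with e | e | e
      · exact absurd e hi
      · rcases fcase j (f b) with e' | e' | e'
        · exact absurd e' hj
        · rw [e, e']
        · rw [e, e', hb]
      · rcases fcase j (f b) with e' | e' | e'
        · exact absurd e' hj
        · rw [e, e', hb]
        · rw [e, e']
    exact h5 (h6.symm.trans h4)
  let Z : B → Fin 3 → ZMod 2 := fun b j => x (M.e (j + 1) b) + x (M.e (j + 2) b)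
  let y : BOff b₀ → ZMod 2 := fun b => Z b.1 (f b + 1)
  have hZ0 : ∀ b : BOff b₀, Z b.1 (f b) = 0 := by
    intro b
    show x (M.e (f b + 1) b.1) + x (M.e (f b + 2) b.1) = 0
    rw [hx b]
    exact z2self _
  have hZ2 : ∀ b : BOff b₀, Z b.1 (f b + 2) = y b := by
    intro b
    show x (M.e (f b + 2 + 1) b.1) + x (M.e (f b + 2 + 2) b.1) =
      x (M.e (f b + 1 + 1) b.1) + x (M.e (f b + 1 + 2) b.1)
    rw [f21, f22, f11, f12, hx b, add_comm]
  have hy : y = 0 := by
    have h1 : A.mulVec y = 0 := by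
      funext b'
      show ∑ b, A b' b * y b = 0
      rw [← flow2 M x (φ b').1]
      rw [sum_off b₀]
      · refine Finset.sum_congr rfl fun b _ => ?_
        rw [sum3' (f b)]
        have e1 : x (M.e (f b + 1) b.1) + x (M.e (f b + 2) b.1) = 0 := hZ0 b
        have e2 : x (M.e (f b + 1 + 1) b.1) + x (M.e (f b + 1 + 2) b.1) = y b := rfl
        have e3 : x (M.e (f b + 2 + 1) b.1) + x (M.e (f b + 2 + 2) b.1) = y b := hZ2 b
        rw [e1, e2, e3, ite_self, zero_add]
        simp only [A, add_mul, ite_mul, one_mul, zero_mul]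
      · refine Finset.sum_eq_zero fun j _ => ?_
        rw [if_neg ((φ b').2 j)]
    by_contra hne
    exact hdet (Matrix.exists_mulVec_eq_zero_iff.1 ⟨y, hne, h1⟩)
  have hZ : ∀ b j, Z b j = 0 := by
    have hoff : ∀ (b : BOff b₀) j, Z b.1 j = 0 := by
      intro b j
      have hyb : y b = 0 := congrFun hy b
      rcases fcase j (f b) with e | e | e
      · rw [e]; exact hZ0 b
      · rw [e]; exact hyb
      · rw [e, hZ2 b]; exact hyb
    intro b j
    by_cases hb : b = b₀
    · subst hb
      have h1 := flow2 M x (M.c j b)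
      rw [Finset.sum_eq_single b] at h1
      · rw [Finset.sum_eq_single j] at h1
        · rw [if_pos rfl] at h1
          exact h1
        · intro j' _ hj'
          rw [if_neg]
          intro e
          exact hj' (M.cls _ _ _ _ e)
        · intro h'; exact absurd (Finset.mem_univ _) h'
      · intro b' _ hb'
        refine Finset.sum_eq_zero fun j' _ => ?_
        have h2 : x (M.e (j' + 1) b') + x (M.e (j' + 2) b') = 0 := hoff ⟨b', hb'⟩ j'
        rw [h2, ite_self]
      · intro h'; exact absurd (Finset.mem_univ _) h'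
    · exact hoff ⟨b, hb⟩ j
  have hZ' : ∀ b j, x (M.e j b) = x (M.e 0 b) := by
    intro b j
    have k0 : x (M.e 1 b) = x (M.e 2 b) := z2eq (hZ b 0)
    have k1 : x (M.e 2 b) = x (M.e 0 b) := z2eq (hZ b 1)
    have : ∀ j : Fin 3, j = 0 ∨ j = 1 ∨ j = 2 := by decide
    rcases this j with rfl | rfl | rfl
    · rfl
    · exact k0.trans k1
    · exact k1
  have hc := const_of_conn hS.conn (fun b => x (M.e 0 b)) (by
    intro j b b' h
    show x (M.e 0 b) = x (M.e 0 b')
    rw [← hZ' b (j + 2), ← hZ' b' (j + 1), h])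
  have h1 := hc ((M.e 0).symm w) ((M.e 0).symm w')
  simp only [Equiv.apply_symm_apply] at h1
  exact h1

/-- the perfect matching -/
theorem exists_pm (M : PMap B W V) [DecidableEq B] [DecidableEq W] [DecidableEq V] (hS : M.Sph)
    (b₀ : B) (f : BOff b₀ → Fin 3) (hf : Mat (Fo M b₀) f) (hg : Good (Fo M b₀) f) (i : Fin 3) :
    ∃ m : B → Fin 3, (Function.Bijective fun b => M.e (m b) b) ∧ m b₀ = i ∧
      ∀ b : BOff b₀, m b.1 ≠ f b := by
  classical
  let P : Matrix (BOff b₀) (BOff b₀) (ZMod 2) := fun b b' =>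
    (if M.e (f b + 1) b.1 = M.e i b'.1 then 1 else 0) +
      (if M.e (f b + 2) b.1 = M.e i b'.1 then 1 else 0)
  have hdet : P.det ≠ 0 := by
    intro h0
    obtain ⟨y, hy, hyP⟩ := Matrix.exists_mulVec_eq_zero_iff.2 h0
    let x : W → ZMod 2 := fun w => if h : (M.e i).symm w ≠ b₀ then y ⟨(M.e i).symm w, h⟩ else 0
    have h1 : ∀ w : W, ∑ b' : BOff b₀, (if w = M.e i b'.1 then 1 else 0) * y b' = x w := by
      intro w
      by_cases h : (M.e i).symm w ≠ b₀
      · simp only [x, dif_pos h]
        rw [Finset.sum_eq_single ⟨(M.e i).symm w, h⟩]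
        · rw [if_pos (by simp), one_mul]
        · intro b' _ hb'
          rw [if_neg, zero_mul]
          intro e
          apply hb'
          apply Subtype.ext
          show b'.1 = (M.e i).symm w
          rw [e, Equiv.symm_apply_apply]
        · intro h'; exact absurd (Finset.mem_univ _) h'
      · simp only [x, dif_neg h]
        refine Finset.sum_eq_zero fun b' _ => ?_
        rw [if_neg, zero_mul]
        intro e
        apply h
        rw [e, Equiv.symm_apply_apply]
        exact b'.2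
    have h2 : ∀ b : BOff b₀, x (M.e (f b + 1) b.1) = x (M.e (f b + 2) b.1) := by
      intro b
      apply z2eq
      rw [← h1, ← h1, ← Finset.sum_add_distrib]
      have this : ∑ b', P b b' * y b' = 0 := congrFun hyP b
      refine Eq.trans (Finset.sum_congr rfl fun b' _ => ?_) this
      simp only [P, add_mul]
    have h3 := white_const M hS b₀ f hf hg x h2
    apply hy
    funext b
    have h4 := h3 (M.e i b.1) (M.e i b₀)
    have h5 : x (M.e i b₀) = 0 := by
      simp only [x]
      rw [dif_neg]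
      rw [Equiv.symm_apply_apply]
      simp
    have h6 : x (M.e i b.1) = y b := by
      simp only [x]
      rw [dif_pos (by rw [Equiv.symm_apply_apply]; exact b.2)]
      congr 1
      apply Subtype.ext
      exact Equiv.symm_apply_apply _ _
    rw [← h6, h4, h5]
    rfl
  rw [Matrix.det_apply] at hdet
  obtain ⟨σ, _, hσ⟩ := Finset.exists_ne_zero_of_sum_ne_zero hdet
  have hprod : ∏ b', P (σ b') b' ≠ 0 := by
    intro h
    apply hσ
    rw [h, smul_zero]
  have hent : ∀ b', P (σ b') b' ≠ 0 := fun b' =>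
    Finset.prod_ne_zero_iff.1 hprod b' (Finset.mem_univ _)
  have hcol : ∀ b : BOff b₀, ∃ k, k ≠ f b ∧ M.e k b.1 = M.e i (σ.symm b).1 := by
    intro b
    have h1 := hent (σ.symm b)
    rw [Equiv.apply_symm_apply] at h1
    by_cases e1 : M.e (f b + 1) b.1 = M.e i (σ.symm b).1
    · exact ⟨_, fne1 _, e1⟩
    · by_cases e2 : M.e (f b + 2) b.1 = M.e i (σ.symm b).1
      · exact ⟨_, fne2 _, e2⟩
      · exfalso
        apply h1
        simp only [P]
        rw [if_neg e1, if_neg e2, add_zero]
  choose k hk1 hk2 using hcol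
  let m : B → Fin 3 := fun b => if h : b ≠ b₀ then k ⟨b, h⟩ else i
  have hm : ∀ b : BOff b₀, m b.1 = k b := by
    intro b
    simp only [m, dif_pos b.2]
  have hm0 : m b₀ = i := by
    simp only [m]
    rw [dif_neg (by simp)]
  refine ⟨m, ?_, hm0, fun b => by rw [hm]; exact hk1 b⟩
  rw [Fintype.bijective_iff_injective_and_card]
  refine ⟨?_, Fintype.card_congr (M.e 0)⟩
  intro b b' h
  simp only at h
  by_cases hb : b = b₀ <;> by_cases hb' : b' = b₀
  · rw [hb, hb']
  · exfalso
    rw [hb, hm0, hm ⟨b', hb'⟩, hk2] at h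
    exact (σ.symm ⟨b', hb'⟩).2 ((M.e i).injective h).symm
  · exfalso
    rw [hb', hm0, hm ⟨b, hb⟩, hk2] at h
    exact (σ.symm ⟨b, hb⟩).2 ((M.e i).injective h)
  · rw [hm ⟨b, hb⟩, hm ⟨b', hb'⟩, hk2, hk2] at h
    have := σ.symm.injective (Subtype.ext ((M.e i).injective h))
    exact congrArg Subtype.val this

/-- **L6.** -/
theorem hamStmt
    (hT1 : ∀ (B W V : Type) [Fintype B] [Fintype W] [Fintype V] [DecidableEq V] [DecidableEq B]
      [DecidableEq W] (M : PMap B W V), M.T1)
    (hT2 : ∀ (B W V : Type) [Fintype B] [Fintype W] [Fintype V] [DecidableEq V] [DecidableEq B]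
      [DecidableEq W] (M : PMap B W V), M.T2) : HamStmt := by
  classical
  intro B W V _ _ _ M hS b₀ f hf hg i
  obtain ⟨m, hm, hm0, hmf⟩ := exists_pm M hS b₀ f hf hg i
  obtain ⟨φ, hφ⟩ := hf
  have hφ' : ∀ b, M.c (f b) b.1 = (φ b).1 := fun b => (Fo_eq M b₀ b _ _).1 (hφ b)
  let f' : B → Fin 3 := fun b => if h : b ≠ b₀ then f ⟨b, h⟩ else 0
  have hf' : ∀ b : BOff b₀, f' b.1 = f b := by
    intro b
    simp only [f', dif_pos b.2]
  have hmat : M.IsMatch b₀ f' := by
    refine ⟨?_, ?_, ?_⟩
    · intro b b' hb hb' h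
      rw [hf' ⟨b, hb⟩, hf' ⟨b', hb'⟩, hφ' ⟨b, hb⟩, hφ' ⟨b', hb'⟩] at h
      exact congrArg Subtype.val (φ.injective (Subtype.ext h))
    · intro v hv
      refine ⟨(φ.symm ⟨v, hv⟩).1, (φ.symm ⟨v, hv⟩).2, ?_⟩
      rw [hf', hφ', Equiv.apply_symm_apply]
    · intro b hb j
      rw [hf' ⟨b, hb⟩, hφ' ⟨b, hb⟩]
      exact ((φ ⟨b, hb⟩).2 j).symm
  refine ⟨m, ⟨hm, ?_⟩, hm0⟩
  intro S T h hSn
  refine ham_conn M hS b₀ f' m hmat hm ?_ (hT1 B W V M) (hT2 B W V M) S T h hSn
  intro b hb
  rw [hf' ⟨b, hb⟩]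
  exact hmf ⟨b, hb⟩

end Vale.Agent.P039.H173
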