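import Vale.Agent.P039.H173.Exact2
import Vale.Agent.P039.Bn.L2.Defs
import Vale.Agent.P039.Bz.Stmt

/-! STEP 1, last part: a perfect matching `m` which is disjoint from the matching `f` (of blacks with
faces) has a connected complement. -/

set_option linter.unusedSectionVars false
set_option linter.all false

namespace Vale.Agent.P039.H173

open Vale.Agent.P039.Bn Finset

variable {B W V : Type} [Fintype B] [Fintype W] [Fintype V]

/-- the third colour -/
def trd (i j : Fin 3) : Fin 3 := - (i + j)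

theorem trd_spec : ∀ i j : Fin 3, i ≠ j → trd i j ≠ i ∧ trd i j ≠ j ∧
    ∀ k, k ≠ i → k ≠ j → k = trd i j := by decide

theorem iff_of_zero (s : ℚ) (hs : s = 1 ∨ s = -1) (p q : Prop) [Decidable p] [Decidable q]
    (h : (0 : ℚ) = s * ((if p then 1 else 0) - (if q then 1 else 0))) : p ↔ q := by
  have hs0 : s ≠ 0 := by rcases hs with rfl | rfl <;> norm_num
  have h2 : ((if p then (1 : ℚ) else 0) - (if q then 1 else 0)) = 0 := by
    rcases mul_eq_zero.1 h.symm with h | h
    · exact absurd h hs0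
    · exact h
  by_cases p1 : p <;> by_cases p2 : q
  · exact ⟨fun _ => p2, fun _ => p1⟩
  · rw [if_pos p1, if_neg p2] at h2; norm_num at h2
  · rw [if_neg p1, if_pos p2] at h2; norm_num at h2
  · exact ⟨fun h => absurd h p1, fun h => absurd h p2⟩

theorem not_iff_of_one (s : ℚ) (p q : Prop) [Decidable p] [Decidable q]
    (h : (1 : ℚ) = s * ((if p then 1 else 0) - (if q then 1 else 0))) : ¬ (p ↔ q) := by
  intro hpq
  by_cases p1 : p
  · rw [if_pos p1, if_pos (hpq.1 p1)] at h; norm_num at h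
  · rw [if_neg p1, if_neg (fun h' => p1 (hpq.2 h'))] at h; norm_num at h

theorem loc_on (t f m : Fin 3) (h1 : t ≠ f) (h2 : m ≠ t) (h3 : m ≠ f) (p : Fin 3 → Prop)
    [DecidablePred p] (s : ℚ) (hs : s = 1 ∨ s = -1)
    (h : ∀ j, (if j = t then (1 : ℚ) else 0) - (if j = f then 1 else 0) =
      s * ((if p (j + 1) then 1 else 0) - (if p (j + 2) then 1 else 0))) :
    (p t ↔ p f) ∧ ¬ (p m ↔ p t) := by
  have e0 := h m
  rw [if_neg h2, if_neg h3, sub_zero] at e0
  have e1 := h t
  rw [if_pos rfl, if_neg h1, sub_zero] at e1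
  have k0 := iff_of_zero s hs _ _ e0
  have k1 := not_iff_of_one s _ _ e1
  rcases fcase t m with e | e | e
  · exact absurd e.symm h2
  · have ef : f = m + 2 := by
      rcases fcase f m with e' | e' | e'
      · exact absurd e'.symm h3
      · exact absurd (e.trans e'.symm) h1
      · exact e'
    rw [e, f11, f12] at k1
    rw [e, ef]
    exact ⟨k0, fun h => k1 (k0.symm.trans h.symm)⟩
  · have ef : f = m + 1 := by
      rcases fcase f m with e' | e' | e'
      · exact absurd e'.symm h3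
      · exact e'
      · exact absurd (e.trans e'.symm) h1
    rw [e, f21, f22] at k1
    rw [e, ef]
    exact ⟨k0.symm, fun h => k1 (h.trans k0.symm)⟩

theorem loc_off (p : Fin 3 → Prop) [DecidablePred p] (s : ℚ) (hs : s = 1 ∨ s = -1)
    (h : ∀ j : Fin 3, (0 : ℚ) =
      s * ((if p (j + 1) then 1 else 0) - (if p (j + 2) then 1 else 0))) (j j' : Fin 3) :
    p j ↔ p j' := by
  have hs0 : s ≠ 0 := by rcases hs with rfl | rfl <;> norm_num
  have key : ∀ j : Fin 3, p (j + 1) ↔ p (j + 2) := by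
    intro j
    have h1 := h j
    have h2 : ((if p (j + 1) then (1 : ℚ) else 0) - (if p (j + 2) then 1 else 0)) = 0 := by
      rcases mul_eq_zero.1 h1.symm with h | h
      · exact absurd h hs0
      · exact h
    by_cases p1 : p (j + 1) <;> by_cases p2 : p (j + 2)
    · exact ⟨fun _ => p2, fun _ => p1⟩
    · rw [if_pos p1, if_neg p2] at h2; norm_num at h2
    · rw [if_neg p1, if_pos p2] at h2; norm_num at h2
    · exact ⟨fun h => absurd h p1, fun h => absurd h p2⟩
  have k0 := key 0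
  have k1 := key 1
  have k2 := key 2
  have t0 : (0 : Fin 3) + 1 = 1 := by decide
  have t1 : (0 : Fin 3) + 2 = 2 := by decide
  have t2 : (1 : Fin 3) + 1 = 2 := by decide
  have t3 : (1 : Fin 3) + 2 = 0 := by decide
  rw [t0, t1] at k0
  rw [t2, t3] at k1
  have a : ∀ j : Fin 3, p j ↔ p 0 := by
    intro j
    have : ∀ j : Fin 3, j = 0 ∨ j = 1 ∨ j = 2 := by decide
    rcases this j with rfl | rfl | rfl
    · exact Iff.rfl
    · exact k0.trans k1
    · exact k1
  exact (a j).trans (a j').symm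

/-- the count: the cycle would be even -/
theorem count_even (M : PMap B W V) (m t f : B → Fin 3) (S : Finset B) (I : Finset W)
    [DecidableEq W]
    (hm : Function.Bijective fun b => M.e (m b) b)
    (hoff : ∀ b, b ∉ S → ∀ j j', (M.e j b ∈ I ↔ M.e j' b ∈ I))
    (hd : ∀ b ∈ S, t b ≠ f b ∧ m b ≠ t b ∧ m b ≠ f b)
    (hon : ∀ b ∈ S, (M.e (t b) b ∈ I ↔ M.e (f b) b ∈ I) ∧
      ¬ (M.e (m b) b ∈ I ↔ M.e (t b) b ∈ I)) :
    S.card = 2 * (S.filter fun b => M.e (t b) b ∈ I).card := by
  classical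
  let χ : Fin 3 → B → ℤ := fun j b => if M.e j b ∈ I then 1 else 0
  have h1 : ∀ φ : B → W, Function.Bijective φ →
      ∑ b, (if φ b ∈ I then (1 : ℤ) else 0) = I.card := by
    intro φ hφ
    rw [Fintype.sum_bijective φ hφ _ (fun w => if w ∈ I then (1 : ℤ) else 0) (fun b => rfl)]
    rw [Finset.sum_ite_mem, Finset.univ_inter]
    simp
  have h2 : ∑ b, χ (m b) b = I.card := h1 _ hm
  have h3 : ∀ j, ∑ b, χ j b = I.card := fun j => h1 _ (M.e j).bijective
  have h4 : ∑ b, ((χ 0 b + χ 1 b + χ 2 b) - 3 * χ (m b) b) = 0 := by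
    rw [Finset.sum_sub_distrib, Finset.sum_add_distrib, Finset.sum_add_distrib, h3, h3, h3,
      ← Finset.mul_sum, h2]
    ring
  have h5 : ∀ b, ((χ 0 b + χ 1 b + χ 2 b) - 3 * χ (m b) b) =
      if b ∈ S then 4 * χ (t b) b - 2 else 0 := by
    intro b
    by_cases hb : b ∈ S
    · rw [if_pos hb]
      obtain ⟨d1, d2, d3⟩ := hd b hb
      obtain ⟨o1, o2⟩ := hon b hb
      have hsum : χ 0 b + χ 1 b + χ 2 b = χ (m b) b + χ (t b) b + χ (f b) b := by
        have : ∀ (x y z : Fin 3) (g : Fin 3 → ℤ), y ≠ z → x ≠ y → x ≠ z →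
            g 0 + g 1 + g 2 = g x + g y + g z := by
          intro x y z g a1 a2 a3
          fin_cases x <;> fin_cases y <;> fin_cases z <;> simp at a1 a2 a3 ⊢ <;> ring
        exact this (m b) (t b) (f b) (fun j => χ j b) d1 d2 d3
      have hf' : χ (f b) b = χ (t b) b := by
        simp only [χ]
        by_cases h : M.e (t b) b ∈ I
        · rw [if_pos h, if_pos (o1.1 h)]
        · rw [if_neg h, if_neg (fun h' => h (o1.2 h'))]
      have hm' : χ (m b) b = 1 - χ (t b) b := by
        simp only [χ]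
        by_cases h : M.e (t b) b ∈ I
        · rw [if_pos h, if_neg (fun h' => o2 ⟨fun _ => h, fun _ => h'⟩)]; norm_num
        · rw [if_neg h]
          rw [if_pos]
          · rw [sub_zero]
          · by_contra h'
            exact o2 ⟨fun a => absurd a h', fun a => absurd a h⟩
      rw [hsum, hf', hm']
      ring
    · rw [if_neg hb]
      have : ∀ j j', χ j b = χ j' b := by
        intro j j'
        simp only [χ]
        by_cases h : M.e j b ∈ I
        · rw [if_pos h, if_pos ((hoff b hb j j').1 h)]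
        · rw [if_neg h, if_neg (fun h' => h ((hoff b hb j j').2 h'))]
      rw [this 0 (m b), this 1 (m b), this 2 (m b)]
      ring
  rw [Finset.sum_congr rfl fun b _ => h5 b, Finset.sum_ite_mem, Finset.univ_inter,
    Finset.sum_sub_distrib, ← Finset.mul_sum] at h4
  have h6 : ∑ b ∈ S, χ (t b) b = (S.filter fun b => M.e (t b) b ∈ I).card := by
    simp only [χ]
    rw [Finset.sum_boole]
  rw [h6] at h4
  simp only [Finset.sum_const, nsmul_eq_mul] at h4
  have : (S.card : ℤ) = 2 * ((S.filter fun b => M.e (t b) b ∈ I).card : ℤ) := by linarith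
  exact_mod_cast this

/-- parity of a cut at a face -/
theorem cut_parity (M : PMap B W V) (S : Set B) (T : Set W) (m : B → Fin 3)
    (h : ∀ b j, j ≠ m b → (b ∈ S ↔ M.e j b ∈ T)) (b : B)
    (hb : ¬ (b ∈ S ↔ M.e (m b) b ∈ T)) (j : Fin 3) (hj : j ≠ m b) :
    ∃ b', b' ≠ b ∧ ¬ (b' ∈ S ↔ M.e (m b') b' ∈ T) ∧ j ≠ m b' ∧ M.c j b' = M.c j b := by
  classical
  by_contra hno'
  have hno : ∀ a, a ≠ b → ¬ (a ∈ S ↔ M.e (m a) a ∈ T) → j ≠ m a → M.c j a = M.c j b → False :=
    fun a h1 h2 h3 h4 => hno' ⟨a, h1, h2, h3, h4⟩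
  let x : B ⊕ W → ZMod 2 := Sum.elim (fun a => if a ∈ S then 1 else 0)
    (fun a => if a ∈ T then 1 else 0)
  have h0 := congrFun (fm_vm M x) (M.c j b)
  rw [fm_tr] at h0
  simp only [vm_mulVec, Pi.zero_apply] at h0
  have hx : ∀ a k, (a ∈ S ↔ M.e k a ∈ T) → x (Sum.inl a) + x (Sum.inr (M.e k a)) = 0 := by
    intro a k hak
    show (if a ∈ S then (1 : ZMod 2) else 0) + (if M.e k a ∈ T then 1 else 0) = 0
    by_cases ha : a ∈ S
    · rw [if_pos ha, if_pos (hak.1 ha)]; decide
    · rw [if_neg ha, if_neg (fun h' => ha (hak.2 h'))]; decide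
  have hx' : x (Sum.inl b) + x (Sum.inr (M.e (m b) b)) = 1 := by
    show (if b ∈ S then (1 : ZMod 2) else 0) + (if M.e (m b) b ∈ T then 1 else 0) = 1
    by_cases ha : b ∈ S
    · rw [if_pos ha, if_neg (fun h' => hb ⟨fun _ => h', fun _ => ha⟩)]; decide
    · rw [if_neg ha, if_pos (by
        by_contra h'
        exact hb ⟨fun a => absurd a ha, fun a => absurd a h'⟩)]; decide
  rw [Finset.sum_eq_single (b, m b)] at h0
  · rw [hx', mul_one] at h0
    have h1 : fm M (b, m b) (M.c j b) = 1 := by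
      show (if M.c j b = M.c (m b + 1) b then (1 : ZMod 2) else 0) +
        (if M.c j b = M.c (m b + 2) b then 1 else 0) = 1
      rcases fcase j (m b) with e | e | e
      · exact absurd e hj
      · rw [if_pos (by rw [e]), if_neg]
        · decide
        · intro h'
          have := M.cls _ _ _ _ h'
          rw [e] at this
          exact fne12 _ this
      · rw [if_neg, if_pos (by rw [e])]
        · decide
        · intro h'
          have := M.cls _ _ _ _ h'
          rw [e] at this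
          exact fne21 _ this
    rw [h1] at h0
    exact absurd h0 (by decide)
  · rintro ⟨a, k⟩ _ hak
    by_cases hk : k = m a
    · by_cases haY : (a ∈ S ↔ M.e (m a) a ∈ T)
      · rw [hk]
        simp only
        rw [hx a (m a) haY, mul_zero]
      · have hab : a ≠ b := by
          rintro rfl
          exact hak (by rw [hk])
        have h2 : fm M (a, k) (M.c j b) = 0 := by
          show (if M.c j b = M.c (k + 1) a then (1 : ZMod 2) else 0) +
            (if M.c j b = M.c (k + 2) a then 1 else 0) = 0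
          rw [if_neg, if_neg]
          · decide
          · intro h'
            have e := M.cls _ _ _ _ h'
            refine hno a hab haY ?_ ?_
            · rw [e, hk]; exact fne2 _
            · rw [h', e]
          · intro h'
            have e := M.cls _ _ _ _ h'
            refine hno a hab haY ?_ ?_
            · rw [e, hk]; exact fne1 _
            · rw [h', e]
        rw [h2, zero_mul]
    · simp only
      rw [hx a k (h a k hk), mul_zero]
  · intro h'
    exact absurd (Finset.mem_univ _) h'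

theorem ham_conn (M : PMap B W V) [DecidableEq B] [DecidableEq W] [DecidableEq V]
    (hS : M.Sph) (b0 : B) (f m : B → Fin 3) (hf : M.IsMatch b0 f)
    (hm : Function.Bijective fun b => M.e (m b) b) (hfm : ∀ b, b ≠ b0 → m b ≠ f b)
    (hT1 : M.T1) (hT2 : M.T2) (S : Set B) (T : Set W)
    (h : ∀ b j, j ≠ m b → (b ∈ S ↔ M.e j b ∈ T)) (hSn : S.Nonempty) : ∀ b, b ∈ S := by
  classical
  by_contra hcon
  push Not at hcon
  obtain ⟨bo, hbo⟩ := hcon
  obtain ⟨bi, hbi⟩ := hSn
  let Y : B → Prop := fun b => ¬ (b ∈ S ↔ M.e (m b) b ∈ T)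
  let t : B → Fin 3 := fun b => trd (f b) (m b)
  -- some edge of the cut
  have hY : ∃ b, Y b := by
    by_contra hno
    push Not at hno
    have h1 : ∀ b j, (b ∈ S ↔ M.e j b ∈ T) := by
      intro b j
      by_cases hj : j = m b
      · have := hno b
        simp only [Y, not_not] at this
        rw [hj]; exact this
      · exact h b j hj
    have h2 := const_of_conn hS.conn (fun b => b ∈ S) (by
      intro j b b' hbb
      have e1 := h1 b (j + 2)
      have e2 := h1 b' (j + 1)
      rw [hbb] at e2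
      exact propext (e1.trans e2.symm)) bi bo
    exact hbo (h2.mp hbi)
  have hY' : ∃ b, b ≠ b0 ∧ Y b := by
    obtain ⟨b, hb⟩ := hY
    by_cases e : b = b0
    · obtain ⟨b', h1, h2, _, _⟩ := cut_parity M S T m h b hb (m b + 1) (fne1 _)
      exact ⟨b', by rw [← e]; exact h1, h2⟩
    · exact ⟨b, e, hb⟩
  have hpred : ∀ y : {b : B // b ≠ b0 ∧ Y b}, ∃ y' : {b : B // b ≠ b0 ∧ Y b},
      M.c (t y'.1) y'.1 = M.c (f y.1) y.1 := by
    rintro ⟨b, hb0, hb⟩
    obtain ⟨b', h1, h2, h3, h4⟩ := cut_parity M S T m h b hb (f b) (hfm b hb0).symm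
    have hb'0 : b' ≠ b0 := by
      rintro rfl
      exact hf.avoid b hb0 (f b) h4.symm
    have h5 : f b ≠ f b' := by
      intro e
      apply h1
      apply hf.inj b' b hb'0 hb0
      rw [← e]
      exact h4
    have h6 : f b = t b' := (trd_spec (f b') (m b') (hfm b' hb'0).symm).2.2 (f b) h5 h3
    refine ⟨⟨b', hb'0, h2⟩, ?_⟩
    show M.c (t b') b' = M.c (f b) b
    rw [← h6, h4]
  choose pred hpred using hpred
  have hinj : Function.Injective pred := by
    intro y y' e
    have h1 := hpred y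
    have h2 := hpred y'
    rw [e, h2] at h1
    exact Subtype.ext (hf.inj _ _ y'.2.1 y.2.1 h1).symm
  let σ : Equiv.Perm {b : B // b ≠ b0 ∧ Y b} :=
    (Equiv.ofBijective pred (Finite.injective_iff_bijective.1 hinj)).symm
  have hσ : ∀ y, M.c (t y.1) y.1 = M.c (f (σ y).1) (σ y).1 := by
    intro y
    have h1 := hpred (σ y)
    have h2 : pred (σ y) = y := (Equiv.ofBijective pred _).apply_symm_apply y
    rw [h2] at h1
    exact h1
  obtain ⟨b1, hb10, hb1Y⟩ := hY'
  let y1 : {b : B // b ≠ b0 ∧ Y b} := ⟨b1, hb10, hb1Y⟩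
  let nx : B → B := fun b => if hb : b ≠ b0 ∧ Y b then (σ ⟨b, hb⟩).1 else b
  have hnx : ∀ y : {b : B // b ≠ b0 ∧ Y b}, nx y.1 = (σ y).1 := by
    intro y
    simp only [nx, dif_pos y.2]
  let C : Finset B := (Finset.univ.filter fun y => σ.SameCycle y1 y).image Subtype.val
  have hC : ∀ b, b ∈ C ↔ ∃ hb : b ≠ b0 ∧ Y b, σ.SameCycle y1 ⟨b, hb⟩ := by
    intro b
    simp only [C, Finset.mem_image, Finset.mem_filter, Finset.mem_univ, true_and]
    constructor
    · rintro ⟨y, hy, rfl⟩
      exact ⟨y.2, hy⟩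
    · rintro ⟨hb, hy⟩
      exact ⟨⟨b, hb⟩, hy, rfl⟩
  have hdist : ∀ b ∈ C, t b ≠ f b ∧ m b ≠ t b ∧ m b ≠ f b := by
    intro b hb
    obtain ⟨hb', _⟩ := (hC b).1 hb
    have h1 := trd_spec (f b) (m b) (hfm b hb'.1).symm
    exact ⟨h1.1, h1.2.1.symm, hfm b hb'.1⟩
  have halt : M.IsAlt t f C nx := by
    refine ⟨fun b hb => (hdist b hb).1, ⟨b1, ?_⟩, ?_, ?_, ?_, ?_, ?_⟩
    · exact (hC b1).2 ⟨⟨hb10, hb1Y⟩, Equiv.Perm.SameCycle.refl _ _⟩
    · intro b hb
      obtain ⟨hb', hc⟩ := (hC b).1 hb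
      refine (hC _).2 ?_
      rw [hnx ⟨b, hb'⟩]
      exact ⟨(σ ⟨b, hb'⟩).2, Equiv.Perm.sameCycle_apply_right.2 hc⟩
    · intro b hb
      obtain ⟨hb', hc⟩ := (hC b).1 hb
      rw [hnx ⟨b, hb'⟩]
      exact hσ ⟨b, hb'⟩
    · intro b hb b' hb' e
      obtain ⟨h1, _⟩ := (hC b).1 hb
      obtain ⟨h2, _⟩ := (hC b').1 hb'
      exact hf.inj b b' h1.1 h2.1 e
    · intro b hb b' hb' e
      obtain ⟨h1, _⟩ := (hC b).1 hb
      obtain ⟨h2, _⟩ := (hC b').1 hb'
      rw [hnx ⟨b, h1⟩, hnx ⟨b', h2⟩] at e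
      exact congrArg Subtype.val (σ.injective (Subtype.ext e))
    · rintro X ⟨a, haC, haX⟩ hX b hb
      obtain ⟨h1, c1⟩ := (hC a).1 haC
      obtain ⟨h2, c2⟩ := (hC b).1 hb
      have h3 : σ.SameCycle ⟨a, h1⟩ ⟨b, h2⟩ := c1.symm.trans c2
      obtain ⟨n, _, hn⟩ := h3.exists_pow_eq'
      have h4 : ∀ n : ℕ, ((σ ^ n) ⟨a, h1⟩).1 ∈ C ∧ ((σ ^ n) ⟨a, h1⟩).1 ∈ X := by
        intro n
        induction n with
        | zero => exact ⟨haC, haX⟩
        | succ n ih =>
          rw [pow_succ', Equiv.Perm.mul_apply, ← hnx]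
          refine ⟨?_, hX _ ih.1 ih.2⟩
          refine (hC _).2 ?_
          rw [hnx]
          refine ⟨(σ _).2, ?_⟩
          refine Equiv.Perm.sameCycle_apply_right.2 ?_
          obtain ⟨h5, h6⟩ := (hC _).1 ih.1
          exact h6
      have := (h4 n).2
      rw [hn] at this
      exact this
  have hb0C : b0 ∉ C := by
    intro hb
    obtain ⟨h1, _⟩ := (hC b0).1 hb
    exact h1.1 rfl
  obtain ⟨s, I, hs, hI, hIb, hcyc⟩ := hT1 hS t f C nx b0 halt hb0C
  have h7 := hT2 hS t f C nx b0 halt hb0C hf s I hs hI hIb hcyc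
  have h8 := count_even M m t f C I hm ?_ hdist ?_
  · omega
  · intro b hb j j'
    refine loc_off (fun j => M.e j b ∈ I) s hs (fun j => ?_) j j'
    have := hcyc b j
    rw [PMap.cyc, if_neg hb] at this
    exact this
  · intro b hb
    obtain ⟨d1, d2, d3⟩ := hdist b hb
    refine loc_on (t b) (f b) (m b) d1 d2 d3 (fun j => M.e j b ∈ I) s hs (fun j => ?_)
    have := hcyc b j
    rw [PMap.cyc, if_pos hb] at this
    exact this

end Vale.Agent.P039.H173
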