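import Vale.Agent.P039.H173.Exact2
import Vale.Agent.P039.Sk.Basic

/-! A 3-edge-connected spherical map: two faces share at most one edge. -/

set_option linter.unusedSectionVars false

namespace Vale.Agent.P039.H173

open Vale.Agent.P039.Bn

variable {B W V : Type} [Fintype B] [Fintype W] [Fintype V]

/-- Every cut without edges is trivial; then the map is connected. -/
theorem conn_of_cut (M : PMap B W V)
    (h : ∀ (S : Finset B) (T : Finset W), (∀ j x, x ∈ S ↔ M.e j x ∈ T) → S.Nonempty →
      ∀ b, b ∈ S) : M.Conn := by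
  classical
  intro b b'
  let S : Finset B := Finset.univ.filter fun x =>
    Relation.EqvGen (fun x y => ∃ j, M.c j x = M.c j y) b x
  let T : Finset W := Finset.univ.filter fun w => ∃ x ∈ S, ∃ i, M.e i x = w
  have h1 := h S T ?_ ⟨b, ?_⟩ b'
  · exact (Finset.mem_filter.1 h1).2
  · intro j x
    constructor
    · intro hx
      exact Finset.mem_filter.2 ⟨Finset.mem_univ _, x, hx, j, rfl⟩
    · intro hx
      obtain ⟨x', hx', i, hi⟩ := (Finset.mem_filter.1 hx).2
      have h2 := (Finset.mem_filter.1 hx').2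
      refine Finset.mem_filter.2 ⟨Finset.mem_univ _, h2.trans _ _ _ (Relation.EqvGen.rel _ _ ?_)⟩
      obtain ⟨k, hk1, hk2⟩ := fthird i j
      refine ⟨k, ?_⟩
      rw [← M.cw_e k i hk1.symm x', ← M.cw_e k j hk2.symm x, hi]
  · exact Finset.mem_filter.2 ⟨Finset.mem_univ _, Relation.EqvGen.refl _⟩

/-- In a spherical map without 2-edge cuts two different faces share at most one edge. -/
theorem simple_of_cut (M : PMap B W V) (hc : M.Conn)
    (hE : Fintype.card V = Fintype.card B + 2)
    (h : ∀ (S : Finset B) (T : Finset W) (i : Fin 3) (b b' : B), b ≠ b' →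
      (∀ j x, (¬ (x ∈ S ↔ M.e j x ∈ T)) ↔ (j = i ∧ (x = b ∨ x = b'))) → False) :
    M.Simple := by
  intro i b b' h1 h2
  by_contra hb
  obtain ⟨S, T, hST⟩ := two_cut M hc hE i b b' hb h1 h2
  exact h S T i b b' hb hST

/-- a labelled web as a map -/
def toP {X : Sk.Web B W} (L : Sk.Lab X V) : PMap B W V where
  e := X.e
  c := L.c
  step := L.step
  exact := L.exact
  cls := L.cls
  surj := L.surj

open Classical in
/-- the number of edges which leave `(S, T)` -/
noncomputable def ncut (e : Fin 3 → B ≃ W) (S : Finset B) (T : Finset W) : ℕ :=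
  (Finset.univ.filter fun p : Fin 3 × B => ¬ (p.2 ∈ S ↔ e p.1 p.2 ∈ T)).card

theorem conn_of_ncut (M : PMap B W V)
    (h : ∀ (S : Finset B) (T : Finset W), ¬ (S = ∅ ∧ T = ∅) →
      ¬ (S = Finset.univ ∧ T = Finset.univ) → 3 ≤ ncut M.e S T) : M.Conn := by
  classical
  refine conn_of_cut M fun S T hST hS b => ?_
  by_contra hb
  have h1 := h S T (fun h => hS.ne_empty h.1) (fun h => hb (by rw [h.1]; exact Finset.mem_univ _))
  have h2 : ncut M.e S T = 0 := by
    rw [ncut, Finset.card_eq_zero, Finset.filter_eq_empty_iff]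
    intro p _ hp
    exact hp (hST p.1 p.2)
  omega

theorem simple_of_ncut (M : PMap B W V) (hE : Fintype.card V = Fintype.card B + 2)
    (h : ∀ (S : Finset B) (T : Finset W), ¬ (S = ∅ ∧ T = ∅) →
      ¬ (S = Finset.univ ∧ T = Finset.univ) → 3 ≤ ncut M.e S T) : M.Simple := by
  classical
  refine simple_of_cut M (conn_of_ncut M h) hE fun S T i b b' hb hST => ?_
  have h1 := h S T ?_ ?_
  · have h2 : ncut M.e S T ≤ 2 := by
      rw [ncut]
      refine (Finset.card_le_card (t := {(i, b), (i, b')}) ?_).trans Finset.card_le_two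
      intro p hp
      have := (hST p.1 p.2).1 (Finset.mem_filter.1 hp).2
      rcases this with ⟨h3, h4 | h4⟩
      · rw [Finset.mem_insert]
        exact Or.inl (Prod.ext h3 h4)
      · rw [Finset.mem_insert, Finset.mem_singleton]
        exact Or.inr (Prod.ext h3 h4)
    omega
  · rintro ⟨rfl, rfl⟩
    exact absurd ((hST i b).2 ⟨rfl, Or.inl rfl⟩) (by simp)
  · rintro ⟨rfl, rfl⟩
    exact absurd ((hST i b).2 ⟨rfl, Or.inl rfl⟩) (by simp)

end Vale.Agent.P039.H173
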